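import Mathlib

/-! P240 Defs: the Quillen complex, its rational reduced homology, and orthogonal groups. -/

namespace Vale.Agent.P240

open Matrix

/-- `E` is a nonidentity elementary abelian `p`-subgroup. -/
def IsEA (p : ℕ) {G : Type*} [Group G] (E : Subgroup G) : Prop :=
  E ≠ ⊥ ∧ (∀ x ∈ E, ∀ y ∈ E, x * y = y * x) ∧ ∀ x ∈ E, x ^ p = 1

/-- Strictly increasing chains of `k` nonidentity elementary abelian `p`-subgroups: the simplices
of dimension `k - 1` of the order complex (for `k = 0` the empty simplex). -/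
def Chain (p : ℕ) (G : Type*) [Group G] (k : ℕ) : Type _ :=
  {c : Fin k → Subgroup G // StrictMono c ∧ ∀ i, IsEA p (c i)}

/-- The face omitting the `i`-th subgroup. -/
def Chain.face {p : ℕ} {G : Type*} [Group G] {k : ℕ} (c : Chain p G (k + 1)) (i : Fin (k + 1)) :
    Chain p G k :=
  ⟨fun a => c.1 (i.succAbove a), c.2.1.comp (Fin.strictMono_succAbove i),
    fun a => c.2.2 (i.succAbove a)⟩

/-- The boundary map of the augmented rational chain complex of the order complex. -/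
noncomputable def bd (p : ℕ) (G : Type*) [Group G] (k : ℕ) :
    (Chain p G (k + 1) →₀ ℚ) →ₗ[ℚ] (Chain p G k →₀ ℚ) :=
  Finsupp.linearCombination ℚ fun c =>
    ∑ i : Fin (k + 1), (-1 : ℚ) ^ (i : ℕ) • Finsupp.single (c.face i) (1 : ℚ)

/-- Reduced rational homology in degree `k` is nonzero: some cycle is not a boundary. -/
def HomNe (p : ℕ) (G : Type*) [Group G] (k : ℕ) : Prop :=
  ∃ z : Chain p G (k + 1) →₀ ℚ, bd p G k z = 0 ∧ z ∉ LinearMap.range (bd p G (k + 1))

/-- The `p`-rank of `G` is `r`. -/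
def IsPRank (p : ℕ) (G : Type*) [Group G] (r : ℕ) : Prop :=
  (∃ E : Subgroup G, IsEA p E ∧ Nat.card E = p ^ r) ∧
    ∀ E : Subgroup G, IsEA p E → Nat.card E ≤ p ^ r

theorem og_mul {n : ℕ} {F : Type*} [Field F] {a b : GL (Fin n) F}
    (ha : (a : Matrix (Fin n) (Fin n) F)ᵀ * (a : Matrix (Fin n) (Fin n) F) = 1)
    (hb : (b : Matrix (Fin n) (Fin n) F)ᵀ * (b : Matrix (Fin n) (Fin n) F) = 1) :
    ((a * b : GL (Fin n) F) : Matrix (Fin n) (Fin n) F)ᵀ *
      ((a * b : GL (Fin n) F) : Matrix (Fin n) (Fin n) F) = 1 := by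
  rw [Units.val_mul, transpose_mul, mul_assoc, ← mul_assoc _ (a : Matrix (Fin n) (Fin n) F), ha,
    one_mul, hb]

theorem og_inv {n : ℕ} {F : Type*} [Field F] {a : GL (Fin n) F}
    (ha : (a : Matrix (Fin n) (Fin n) F)ᵀ * (a : Matrix (Fin n) (Fin n) F) = 1) :
    ((a⁻¹ : GL (Fin n) F) : Matrix (Fin n) (Fin n) F)ᵀ *
      ((a⁻¹ : GL (Fin n) F) : Matrix (Fin n) (Fin n) F) = 1 := by
  have h : ((a⁻¹ : GL (Fin n) F) : Matrix (Fin n) (Fin n) F) =
      (a : Matrix (Fin n) (Fin n) F)ᵀ := by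
    rw [← one_mul ((a⁻¹ : GL (Fin n) F) : Matrix (Fin n) (Fin n) F), ← ha, mul_assoc,
      Units.mul_inv, mul_one]
  rw [h, transpose_transpose, ← h, Units.mul_inv]

theorem og_one {n : ℕ} {F : Type*} [Field F] :
    ((1 : GL (Fin n) F) : Matrix (Fin n) (Fin n) F)ᵀ *
      ((1 : GL (Fin n) F) : Matrix (Fin n) (Fin n) F) = 1 := by
  simp

/-- The orthogonal group of the form `x_1^2 + ... + x_n^2`. -/
def OG (n : ℕ) (F : Type*) [Field F] : Subgroup (GL (Fin n) F) where
  carrier := {g | (g : Matrix (Fin n) (Fin n) F)ᵀ * (g : Matrix (Fin n) (Fin n) F) = 1}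
  one_mem' := og_one
  mul_mem' := og_mul
  inv_mem' := og_inv

/-- The image in `PGL(n, F)` of the commutator subgroup `Ω_n(F)` of the orthogonal group for odd
`n`, and of the full orthogonal group for even `n`. -/
def PH (n : ℕ) (F : Type*) [Field F] : Subgroup (ProjGenLinGroup (Fin n) F) :=
  (if Odd n then ⁅OG n F, OG n F⁆ else OG n F).map ProjGenLinGroup.mk

end Vale.Agent.P240
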